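import Mathlib
import Vale.Agent.Lib.P194.Filtration
import Vale.Agent.Lib.P201.Fox

/-!
Group rings `K[G]` with a free normal subgroup `N`: the Fox derivative on `K[G]`
and its interaction with the filtration by powers of the kernel of `K[G] → K[G/N]`.
-/

namespace Vale.Agent.Lib.P201

open MonoidAlgebra Vale.Agent.Lib.P194

variable {K : Type*} [CommRing K] {G : Type*} [Group G] {X : Type*}

lemma rmul_zero' {R : Type*} [Ring R] (f : X →₀ R) : rmul (0 : R) f = 0 := by
  ext x; simp

lemma rmul_add' {R : Type*} [Ring R] (r s : R) (f : X →₀ R) :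
    rmul (r + s) f = rmul r f + rmul s f := by
  ext x; simp [mul_add]

/-- the inclusion of `N` in the group ring -/
noncomputable def incl (K : Type*) [CommRing K] {G : Type*} [Group G] (N : Subgroup G) :
    N →* MonoidAlgebra K G := (of K G).comp N.subtype

lemma incl_apply (N : Subgroup G) (n : N) : incl K N n = of K G (n : G) := rfl

/-- the chosen representative of the coset of `g` -/
noncomputable def rep (N : Subgroup G) (g : G) : G := (g : G ⧸ N).out

lemma rep_mk (N : Subgroup G) (g : G) : ((rep N g : G) : G ⧸ N) = (g : G ⧸ N) := by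
  unfold rep; exact Quotient.out_eq' _

lemma mul_rep_inv_mem (N : Subgroup G) [N.Normal] (g : G) : g * (rep N g)⁻¹ ∈ N := by
  rw [← QuotientGroup.eq_one_iff, QuotientGroup.mk_mul, QuotientGroup.mk_inv, rep_mk,
    mul_inv_cancel]

/-- the `N`-part of `g`, so that `g = nu g * rep g` -/
noncomputable def nu (N : Subgroup G) [N.Normal] (g : G) : N := ⟨g * (rep N g)⁻¹, mul_rep_inv_mem N g⟩

lemma rep_mul_left (N : Subgroup G) [N.Normal] (n : N) (g : G) : rep N (n * g) = rep N g := by
  have h : ((n * g : G) : G ⧸ N) = (g : G ⧸ N) := by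
    rw [QuotientGroup.mk_mul, (QuotientGroup.eq_one_iff (n : G)).2 n.2, one_mul]
  unfold rep
  rw [h]

lemma nu_mul_left (N : Subgroup G) [N.Normal] (n : N) (g : G) : nu N (n * g) = n * nu N g := by
  apply Subtype.ext
  simp [nu, rep_mul_left, mul_assoc]

lemma nu_mul_rep (N : Subgroup G) [N.Normal] (g : G) : (nu N g : G) * rep N g = g := by
  simp [nu]

variable (N : Subgroup G) [N.Normal] (b : FreeGroupBasis X N)

/-- the Fox derivative of a group element of `G` -/
noncomputable def foxG (K : Type*) [CommRing K] {G : Type*} [Group G] {X : Type*}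
    (N : Subgroup G) [N.Normal] (b : FreeGroupBasis X N) (g : G) :
    X →₀ MonoidAlgebra K G :=
  rmul (of K G (rep N g)) (fox b (incl K N) (nu N g))

/-- the Fox derivative on the group ring -/
noncomputable def foxD (K : Type*) [CommRing K] {G : Type*} [Group G] {X : Type*}
    (N : Subgroup G) [N.Normal] (b : FreeGroupBasis X N) :
    MonoidAlgebra K G →+ (X →₀ MonoidAlgebra K G) :=
  (Finsupp.liftAddHom (fun g : G =>
    (LinearMap.toSpanSingleton K (X →₀ MonoidAlgebra K G) (foxG K N b g)).toAddMonoidHom)).comp
    (coeffAddEquiv (R := K) (M := G)).toAddMonoidHom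

lemma foxD_single (g : G) (c : K) : foxD K N b (single g c) = c • foxG K N b g := by
  unfold foxD
  rw [AddMonoidHom.comp_apply]
  have : (coeffAddEquiv (R := K) (M := G)).toAddMonoidHom (single g c) = Finsupp.single g c := by
    simp
  rw [this, Finsupp.liftAddHom_apply_single]
  rfl

lemma smul_rmul_of (c : K) (g : G) (f : X →₀ MonoidAlgebra K G) :
    c • rmul (of K G g) f = rmul (single g c) f := by
  ext x : 1
  have : (single g c : MonoidAlgebra K G) = c • of K G g := by
    simp [of_apply]
  rw [Finsupp.smul_apply, rmul_apply, rmul_apply, this, mul_smul_comm]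

lemma foxG_mul_left (n : N) (g : G) :
    foxG K N b (n * g) = rmul (of K G g) (fox b (incl K N) n) + foxG K N b g := by
  unfold foxG
  rw [rep_mul_left, nu_mul_left, fox_mul, map_add, rmul_rmul, incl_apply, ← map_mul, nu_mul_rep]

theorem foxD_of_mul (n : N) (y : MonoidAlgebra K G) :
    foxD K N b (of K G (n : G) * y) = rmul y (fox b (incl K N) n) + foxD K N b y := by
  induction y using MonoidAlgebra.induction_linear with
  | zero => simp [rmul_zero']
  | add y z hy hz =>
    rw [mul_add, map_add, hy, hz, rmul_add', map_add]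
    abel
  | single g c =>
    have : of K G (n : G) * single g c = single ((n : G) * g) c := by
      simp [of_apply, single_mul_single]
    rw [this, foxD_single, foxD_single, foxG_mul_left, smul_add, smul_rmul_of]

theorem foxD_sub_one_mul (n : N) (y : MonoidAlgebra K G) :
    foxD K N b ((of K G (n : G) - 1) * y) = rmul y (fox b (incl K N) n) := by
  rw [sub_mul, one_mul, map_sub, foxD_of_mul, add_sub_cancel_right]

/-- `Φ (D a) = a` on the kernel ideal. -/
theorem foxEval_foxD {a : MonoidAlgebra K G} (ha : a ∈ filt K N 1) :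
    foxEval b (incl K N) (foxD K N b a) = a := by
  have : filt K N 1 ≤ AddMonoidHom.eqLocus
      ((foxEval b (incl K N)).comp (foxD K N b)) (AddMonoidHom.id _) := by
    refine filt_succ_le ?_
    intro n hn z _
    show foxEval b (incl K N) (foxD K N b ((of K G n - 1) * z)) = (of K G n - 1) * z
    rw [foxD_sub_one_mul N b ⟨n, hn⟩ z, foxEval_rmul, foxEval_fox]
    rfl
  exact this ha

theorem foxD_mul_right {a : MonoidAlgebra K G} (ha : a ∈ filt K N 1) (r : MonoidAlgebra K G) :
    foxD K N b (a * r) = rmul r (foxD K N b a) := by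
  have : filt K N 1 ≤ AddMonoidHom.eqLocus
      ((foxD K N b).comp (AddMonoidHom.mulRight r)) ((rmul r).comp (foxD K N b)) := by
    refine filt_succ_le ?_
    intro n hn z _
    show foxD K N b ((of K G n - 1) * z * r) = rmul r (foxD K N b ((of K G n - 1) * z))
    rw [mul_assoc, foxD_sub_one_mul N b ⟨n, hn⟩, foxD_sub_one_mul N b ⟨n, hn⟩, rmul_rmul]
  exact this ha

theorem foxD_mem {m : ℕ} {a : MonoidAlgebra K G} (ha : a ∈ filt K N (m + 1)) (x : X) :
    foxD K N b a x ∈ filt K N m := by
  have : filt K N (m + 1) ≤ (filt K N m).comap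
      ((Finsupp.applyAddHom x).comp (foxD K N b)) := by
    refine filt_succ_le ?_
    intro n hn z hz
    show foxD K N b ((of K G n - 1) * z) x ∈ filt K N m
    rw [foxD_sub_one_mul N b ⟨n, hn⟩ z, rmul_apply]
    exact filt_mul_left N m _ z hz
  exact this ha

theorem mem_filt_succ_of_foxD {m : ℕ} {a : MonoidAlgebra K G} (ha : a ∈ filt K N 1)
    (h : ∀ x, foxD K N b a x ∈ filt K N m) : a ∈ filt K N (m + 1) := by
  rw [← foxEval_foxD N b ha]
  have key : ∀ f : X →₀ MonoidAlgebra K G, (∀ x, f x ∈ filt K N m) →
      foxEval b (incl K N) f ∈ filt K N (m + 1) := by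
    intro f hf
    have : foxEval b (incl K N) f = f.sum (fun x r => (incl K N (b x) - 1) * r) := by
      simp [foxEval, Finsupp.liftAddHom_apply]
    rw [this]
    refine AddSubgroup.sum_mem _ ?_
    intro x _
    exact filt_succ_mem (b x).2 (hf x)
  exact key _ h

end Vale.Agent.Lib.P201
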