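import Mathlib
import Vale.Agent.Lib.P194.Filtration
import Vale.Agent.Lib.P201.Fox
import Vale.Agent.Lib.P201.Domain

/-!
The filtration of `K[G]` by powers of the kernel of `K[G] → K[G/N]`, `N` free and normal:
the associated graded ring has no zero divisors as soon as `K[G/N]` has none.
-/

namespace Vale.Agent.Lib.P201

open MonoidAlgebra Vale.Agent.Lib.P194

variable {K : Type*} [CommRing K] {G : Type*} [Group G] {X : Type*}

lemma filt_succ_le_self (N : Subgroup G) [N.Normal] (m : ℕ) : filt K N (m + 1) ≤ filt K N m :=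
  filt_succ_le (fun _ _ z hz => filt_mul_left N m _ z hz)

lemma filt_succ_le_one (N : Subgroup G) (m : ℕ) : filt K N (m + 1) ≤ filt K N 1 :=
  filt_succ_le (fun _ hn _ _ => filt_succ_mem hn (AddSubgroup.mem_top _))

lemma filt_one_map (N : Subgroup G) [N.Normal] {a : MonoidAlgebra K G} (ha : a ∈ filt K N 1) :
    mapDomainRingHom K (QuotientGroup.mk' N) a = 0 := by
  have : filt K N 1 ≤ (mapDomainRingHom K (QuotientGroup.mk' N)).toAddMonoidHom.ker := by
    refine filt_succ_le ?_
    intro n hn z _
    rw [AddMonoidHom.mem_ker]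
    show mapDomainRingHom K (QuotientGroup.mk' N) ((of K G n - 1) * z) = 0
    have h1 : (n : G ⧸ N) = 1 := (QuotientGroup.eq_one_iff n).2 hn
    rw [map_mul, map_sub, map_one]
    simp [of_apply, h1, one_def]
  exact this ha

lemma filt_mul_filt_one (N : Subgroup G) [N.Normal] (m : ℕ) {x : MonoidAlgebra K G}
    (hx : x ∈ filt K N 1) : ∀ z ∈ filt K N m, z * x ∈ filt K N (m + 1) := by
  induction m with
  | zero => intro z _; exact filt_mul_left N 1 z x hx
  | succ m ih =>
    have : filt K N (m + 1) ≤ (filt K N (m + 1 + 1)).comap (AddMonoidHom.mulRight x) := by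
      refine filt_succ_le ?_
      intro n hn z hz
      simp only [AddSubgroup.mem_comap, AddMonoidHom.coe_mulRight, mul_assoc]
      exact filt_succ_mem hn (ih z hz)
    intro z hz
    exact this hz

/-- the anti-automorphism `g ↦ g⁻¹` of the group ring -/
noncomputable def sig (K : Type*) [CommRing K] (G : Type*) [Group G] :
    MonoidAlgebra K G →+ MonoidAlgebra K G where
  toFun := mapDomain (fun g : G => g⁻¹)
  map_zero' := mapDomain_zero _
  map_add' := mapDomain_add _

lemma sig_single (g : G) (c : K) : sig K G (single g c) = single g⁻¹ c := mapDomain_single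

lemma sig_mul (a b : MonoidAlgebra K G) : sig K G (a * b) = sig K G b * sig K G a := by
  induction a using MonoidAlgebra.induction_linear with
  | zero => simp
  | add a a' ha ha' => rw [add_mul, map_add, ha, ha', map_add, mul_add]
  | single g c =>
    induction b using MonoidAlgebra.induction_linear with
    | zero => simp
    | add b b' hb hb' => rw [mul_add, map_add, hb, hb', map_add, add_mul]
    | single h d =>
      rw [single_mul_single, sig_single, sig_single, sig_single, single_mul_single, mul_inv_rev,
        mul_comm c d]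

lemma sig_sig (a : MonoidAlgebra K G) : sig K G (sig K G a) = a := by
  induction a using MonoidAlgebra.induction_linear with
  | zero => simp
  | add a a' ha ha' => rw [map_add, map_add, ha, ha']
  | single g c => rw [sig_single, sig_single, inv_inv]

lemma sig_mem_filt (N : Subgroup G) [N.Normal] (m : ℕ) :
    ∀ a ∈ filt K N m, sig K G a ∈ filt K N m := by
  induction m with
  | zero => intro a _; exact AddSubgroup.mem_top _
  | succ m ih =>
    have : filt K N (m + 1) ≤ (filt K N (m + 1)).comap (sig K G) := by
      refine filt_succ_le ?_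
      intro n hn z hz
      rw [AddSubgroup.mem_comap, sig_mul]
      refine filt_mul_filt_one N m ?_ _ (ih z hz)
      have : sig K G (of K G n - 1) = (of K G n⁻¹ - 1) * 1 := by
        rw [map_sub, mul_one, of_apply, sig_single, one_def, sig_single, inv_one, of_apply]
      rw [this]
      exact filt_succ_mem (N.inv_mem hn) (AddSubgroup.mem_top _)
    intro a ha
    exact this ha

lemma sig_mem_filt_iff (N : Subgroup G) [N.Normal] (m : ℕ) (a : MonoidAlgebra K G) :
    sig K G a ∈ filt K N m ↔ a ∈ filt K N m :=
  ⟨fun h => by simpa [sig_sig] using sig_mem_filt N m _ h, sig_mem_filt N m a⟩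

variable (N : Subgroup G) [N.Normal] (b : FreeGroupBasis X N)

include b in
/-- one step of the graded argument, lowering the degree of the left factor -/
lemma graded_step {m n : ℕ}
    (h : ∀ a c : MonoidAlgebra K G, a ∈ filt K N m → a ∉ filt K N (m + 1) → c ∈ filt K N n →
      c ∉ filt K N (n + 1) → a * c ∉ filt K N (m + n + 1))
    (a c : MonoidAlgebra K G) (ha : a ∈ filt K N (m + 1)) (ha' : a ∉ filt K N (m + 1 + 1))
    (hc : c ∈ filt K N n) (hc' : c ∉ filt K N (n + 1)) :
    a * c ∉ filt K N (m + 1 + n + 1) := by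
  intro hac
  have ha1 : a ∈ filt K N 1 := filt_succ_le_one N m ha
  have hex : ∃ x, foxD K N b a x ∉ filt K N (m + 1) := by
    by_contra hcon
    push Not at hcon
    exact ha' (mem_filt_succ_of_foxD N b ha1 hcon)
  obtain ⟨x, hx⟩ := hex
  have h1 : foxD K N b (a * c) x ∈ filt K N (m + n + 1) := by
    apply foxD_mem N b
    have : m + 1 + n + 1 = m + n + 1 + 1 := by ring
    rwa [this] at hac
  rw [foxD_mul_right N b ha1, rmul_apply] at h1
  exact h _ c (foxD_mem N b ha x) hx hc hc' h1

include b in
theorem graded_domain [NoZeroDivisors (MonoidAlgebra K (G ⧸ N))] (m n : ℕ) :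
    ∀ a c : MonoidAlgebra K G, a ∈ filt K N m → a ∉ filt K N (m + 1) → c ∈ filt K N n →
      c ∉ filt K N (n + 1) → a * c ∉ filt K N (m + n + 1) := by
  have base : ∀ a c : MonoidAlgebra K G, a ∈ filt K N 0 → a ∉ filt K N (0 + 1) → c ∈ filt K N 0 →
      c ∉ filt K N (0 + 1) → a * c ∉ filt K N (0 + 0 + 1) := by
    intro a c _ ha _ hc hac
    have h1 := filt_one_map N hac
    rw [map_mul] at h1
    rcases mul_eq_zero.1 h1 with h | h
    · exact ha (ker_le_filt_one N h)
    · exact hc (ker_le_filt_one N h)
  have left0 : ∀ m : ℕ, ∀ a c : MonoidAlgebra K G, a ∈ filt K N m → a ∉ filt K N (m + 1) →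
      c ∈ filt K N 0 → c ∉ filt K N (0 + 1) → a * c ∉ filt K N (m + 0 + 1) := by
    intro m
    induction m with
    | zero => exact base
    | succ m ih => exact graded_step N b ih
  have right0 : ∀ n : ℕ, ∀ a c : MonoidAlgebra K G, a ∈ filt K N 0 → a ∉ filt K N (0 + 1) →
      c ∈ filt K N n → c ∉ filt K N (n + 1) → a * c ∉ filt K N (0 + n + 1) := by
    intro n a c ha ha' hc hc' hac
    have h1 := left0 n (sig K G c) (sig K G a) ((sig_mem_filt_iff N _ _).2 hc)
      (fun h => hc' ((sig_mem_filt_iff N _ _).1 h)) ((sig_mem_filt_iff N _ _).2 ha)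
      (fun h => ha' ((sig_mem_filt_iff N _ _).1 h))
    rw [← sig_mul, sig_mem_filt_iff] at h1
    apply h1
    have : 0 + n + 1 = n + 0 + 1 := by ring
    rwa [this] at hac
  induction m with
  | zero => exact right0 n
  | succ m ih => exact graded_step N b ih

end Vale.Agent.Lib.P201
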