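import Mathlib
import Vale.Agent.Lib.P194.Filtration
import Vale.Agent.Lib.P201.Fox
import Vale.Agent.Lib.P201.Domain

/-!
For a free normal subgroup `N` of `G` the powers of the kernel of `K[G] → K[G/N]`
intersect in zero (any commutative coefficient ring).
-/

namespace Vale.Agent.Lib.P201

open MonoidAlgebra Vale.Agent.Lib.P194

section free

open FreeGroup

variable {X : Type*}

lemma toWord_letter_mul [DecidableEq X] (a : X × Bool) (u : FreeGroup X) :
    (FreeGroup.mk [a] * u).toWord =
      List.casesOn u.toWord [a]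
        fun hd tl => if a.1 = hd.1 ∧ a.2 = not hd.2 then tl else a :: hd :: tl := by
  conv_lhs => rw [← mk_toWord (x := u)]
  rw [FreeGroup.mul_mk, toWord_mk, List.singleton_append, reduce.cons, reduce_toWord]

lemma of_inv_eq_mk (x : X) : (FreeGroup.of x)⁻¹ = FreeGroup.mk [(x, false)] := rfl

lemma exists_norm_letter_mul [DecidableEq X] {k : ℕ} (u : FreeGroup X) (hu : u.norm = k + 1) :
    ∃ y, ((FreeGroup.of y)⁻¹ * u).norm = k ∨ (FreeGroup.of y * u).norm = k := by
  unfold FreeGroup.norm at hu ⊢
  rcases hw : u.toWord with _ | ⟨⟨y, e⟩, tl⟩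
  · rw [hw] at hu; simp at hu
  · rw [hw] at hu
    refine ⟨y, ?_⟩
    cases e
    · right
      rw [FreeGroup.of, toWord_letter_mul, hw]
      simpa using hu
    · left
      rw [of_inv_eq_mk, toWord_letter_mul, hw]
      simpa using hu

lemma not_both_shorter [DecidableEq X] (x : X) (u : FreeGroup X) :
    ¬ ((FreeGroup.of x * u).norm < u.norm ∧ ((FreeGroup.of x)⁻¹ * u).norm < u.norm) := by
  unfold FreeGroup.norm
  rw [of_inv_eq_mk, FreeGroup.of, toWord_letter_mul, toWord_letter_mul]
  rcases hw : u.toWord with _ | ⟨⟨y, e⟩, tl⟩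
  · simp
  · cases e
    · simp only [Bool.not_false, and_true, Bool.false_eq_true, and_false, if_false]
      simp
    · simp only [Bool.not_true, and_true, Bool.true_eq_false, and_false, if_false]
      simp

end free

variable {K : Type*} [CommRing K] {G : Type*} [Group G] {X : Type*}

/-- elements of the group ring all of whose support satisfies `P` -/
def Supp (K : Type*) [CommRing K] {G : Type*} [Group G] (P : G → Prop) :
    AddSubgroup (MonoidAlgebra K G) where
  carrier := {y | ∀ g, y.coeff g ≠ 0 → P g}
  zero_mem' := by intro g hg; simp at hg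
  add_mem' := by
    intro y z hy hz g hg
    by_cases h : y.coeff g = 0
    · apply hz
      intro h2
      apply hg
      simp [h, h2]
    · exact hy g h
  neg_mem' := by
    intro y hy g hg
    apply hy
    simpa using hg

lemma mem_Supp {P : G → Prop} {y : MonoidAlgebra K G} :
    y ∈ Supp K P ↔ ∀ g, y.coeff g ≠ 0 → P g := Iff.rfl

lemma Supp_mono {P Q : G → Prop} (h : ∀ g, P g → Q g) : Supp K P ≤ Supp K Q :=
  fun _ hy g hg => h g (hy g hg)

lemma single_mem_Supp {P : G → Prop} {g : G} (hg : P g) (c : K) : single g c ∈ Supp K P := by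
  classical
  intro h hh
  rw [coeff_single, Finsupp.single_apply] at hh
  split_ifs at hh with h1
  · exact h1 ▸ hg
  · exact absurd rfl hh

lemma of_mem_Supp {P : G → Prop} {g : G} (hg : P g) : of K G g ∈ Supp K P :=
  single_mem_Supp hg 1

lemma smul_mem_Supp {P : G → Prop} (c : K) {y : MonoidAlgebra K G} (hy : y ∈ Supp K P) :
    c • y ∈ Supp K P := by
  intro g hg
  apply hy
  intro h0
  apply hg
  simp [h0]

lemma Supp_map {A : Type*} [AddCommGroup A] {P : G → Prop} (T : MonoidAlgebra K G →+ A)
    (S : AddSubgroup A) (h : ∀ g, P g → ∀ c, T (single g c) ∈ S) :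
    ∀ y ∈ Supp K P, T y ∈ S := by
  intro y hy
  rw [← sum_coeff_single y, Finsupp.sum, map_sum]
  refine S.sum_mem ?_
  intro g hg
  exact h g (hy g (Finsupp.mem_support_iff.1 hg)) _

variable (N : Subgroup G) [N.Normal] (b : FreeGroupBasis X N)

/-- the word length of the `N`-part of `g` -/
noncomputable def len (g : G) : ℕ :=
  letI := Classical.decEq X
  (b.repr (nu N g)).norm

lemma exists_len_letter_mul {k : ℕ} (g : G) (hg : len N b g = k + 1) :
    ∃ y, len N b (((b y)⁻¹ : N) * g) = k ∨ len N b ((b y : N) * g) = k := by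
  let _ := Classical.decEq X
  obtain ⟨y, hy⟩ := exists_norm_letter_mul _ hg
  refine ⟨y, ?_⟩
  unfold len
  rw [nu_mul_left, nu_mul_left, map_mul, map_mul, map_inv, FreeGroupBasis.repr_apply_coe]
  exact hy

lemma len_not_both_shorter (x : X) (g : G) :
    ¬ (len N b ((b x : N) * g) < len N b g ∧ len N b (((b x)⁻¹ : N) * g) < len N b g) := by
  let _ := Classical.decEq X
  have h := not_both_shorter x (b.repr (nu N g))
  unfold len
  rw [nu_mul_left, nu_mul_left, map_mul, map_mul, map_inv, FreeGroupBasis.repr_apply_coe]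
  exact h

lemma foxG_of_len_zero (g : G) (hg : len N b g = 0) : foxG K N b g = 0 := by
  let _ := Classical.decEq X
  unfold len at hg
  rw [FreeGroup.norm_eq_zero] at hg
  have h1 : nu N g = 1 := by
    have := congrArg b.repr.symm hg
    simpa using this
  unfold foxG
  rw [h1, fox_one, map_zero]

lemma foxG_basis_mul (y : X) (g : G) :
    foxG K N b ((b y : N) * g) = Finsupp.single y (of K G g) + foxG K N b g := by
  rw [foxG_mul_left, fox_basis, rmul_single, one_mul]

lemma foxG_basis_inv_mul (y : X) (g : G) :
    foxG K N b (((b y)⁻¹ : N) * g)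
      = - Finsupp.single y (of K G (((b y)⁻¹ : N) * g)) + foxG K N b g := by
  rw [foxG_mul_left, fox_inv, fox_basis, rmul_single, one_mul, map_neg, rmul_single, incl_apply,
    ← map_mul]

/-- support control for the Fox derivative of a group element -/
theorem foxG_supp (k : ℕ) : ∀ g : G, len N b g = k → ∀ x : X,
    foxG K N b g x ∈ Supp K (fun h => len N b h < len N b g ∨
      (h = g ∧ len N b ((b x : N) * g) < len N b g)) ∧
    of K G (b x : N) * foxG K N b g x ∈ Supp K (fun h => len N b h < len N b g ∨
      (h = g ∧ len N b (((b x)⁻¹ : N) * g) < len N b g)) := by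
  classical
  induction k with
  | zero =>
    intro g hg x
    rw [foxG_of_len_zero N b g hg]
    simp
  | succ k ih =>
    intro g hg x
    obtain ⟨y, hy | hy⟩ := exists_len_letter_mul N b g hg
    · -- `g = b y * g'`
      set g' : G := ((b y)⁻¹ : N) * g with hg'
      have hgg : g = (b y : N) * g' := by simp [hg']
      have hlt : len N b g' < len N b g := by omega
      obtain ⟨i1, i2⟩ := ih g' hy x
      have j1 : foxG K N b g' x ∈ Supp K (fun h => len N b h < len N b g) :=
        Supp_mono (by rintro h (h1 | ⟨rfl, _⟩) <;> omega) i1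
      have j2 : of K G (b x : N) * foxG K N b g' x ∈ Supp K (fun h => len N b h < len N b g) :=
        Supp_mono (by rintro h (h1 | ⟨rfl, _⟩) <;> omega) i2
      have e : foxG K N b g x = (Finsupp.single y (of K G g')) x + foxG K N b g' x := by
        conv_lhs => rw [hgg, foxG_basis_mul]
        rfl
      rw [e]
      by_cases hxy : y = x
      · subst hxy
        rw [Finsupp.single_eq_same, mul_add, ← map_mul, ← hgg]
        exact ⟨add_mem (of_mem_Supp (Or.inl hlt)) (Supp_mono (fun _ h => Or.inl h) j1),
          add_mem (of_mem_Supp (Or.inr ⟨rfl, hlt⟩)) (Supp_mono (fun _ h => Or.inl h) j2)⟩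
      · rw [Finsupp.single_eq_of_ne (Ne.symm hxy), zero_add]
        exact ⟨Supp_mono (fun _ h => Or.inl h) j1, Supp_mono (fun _ h => Or.inl h) j2⟩
    · -- `g = (b y)⁻¹ * g'`
      set g' : G := (b y : N) * g with hg'
      have hgg : g = ((b y)⁻¹ : N) * g' := by simp [hg']
      have hlt : len N b g' < len N b g := by omega
      obtain ⟨i1, i2⟩ := ih g' hy x
      have j1 : foxG K N b g' x ∈ Supp K (fun h => len N b h < len N b g) :=
        Supp_mono (by rintro h (h1 | ⟨rfl, _⟩) <;> omega) i1
      have j2 : of K G (b x : N) * foxG K N b g' x ∈ Supp K (fun h => len N b h < len N b g) :=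
        Supp_mono (by rintro h (h1 | ⟨rfl, _⟩) <;> omega) i2
      have e : foxG K N b g x = - (Finsupp.single y (of K G g)) x + foxG K N b g' x := by
        conv_lhs => rw [hgg, foxG_basis_inv_mul, ← hgg]
        rfl
      rw [e]
      by_cases hxy : y = x
      · subst hxy
        rw [Finsupp.single_eq_same, mul_add, mul_neg, ← map_mul, ← hg']
        exact ⟨add_mem (neg_mem (of_mem_Supp (Or.inr ⟨rfl, hlt⟩)))
            (Supp_mono (fun _ h => Or.inl h) j1),
          add_mem (neg_mem (of_mem_Supp (Or.inl hlt))) (Supp_mono (fun _ h => Or.inl h) j2)⟩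
      · rw [Finsupp.single_eq_of_ne (Ne.symm hxy), neg_zero, zero_add]
        exact ⟨Supp_mono (fun _ h => Or.inl h) j1, Supp_mono (fun _ h => Or.inl h) j2⟩

open Classical in
/-- support control for the Fox derivative on the group ring -/
theorem foxD_supp (l : ℕ) (A : Finset G) (hA : ∀ h ∈ A, len N b h ≤ l) (x : X)
    (y : MonoidAlgebra K G) (hy : y ∈ Supp K (fun h => len N b h < l ∨ h ∈ A)) :
    foxD K N b y x ∈ Supp K (fun h => len N b h < l ∨
      h ∈ A.filter (fun h => len N b ((b x : N) * h) < len N b h)) ∧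
    of K G (b x : N) * foxD K N b y x ∈ Supp K (fun h => len N b h < l ∨
      h ∈ A.filter (fun h => len N b (((b x)⁻¹ : N) * h) < len N b h)) := by
  constructor
  · refine Supp_map ((Finsupp.applyAddHom x).comp (foxD K N b)) _ ?_ y hy
    intro g hg c
    show foxD K N b (single g c) x ∈ _
    rw [foxD_single, Finsupp.smul_apply]
    refine smul_mem_Supp c (Supp_mono ?_ (foxG_supp N b _ g rfl x).1)
    have hgl : len N b g ≤ l := by
      rcases hg with h | h
      · omega
      · exact hA g h
    rintro h (h1 | ⟨rfl, h1⟩)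
    · left; omega
    · rcases hg with h2 | h2
      · exact Or.inl h2
      · exact Or.inr (Finset.mem_filter.2 ⟨h2, h1⟩)
  · refine Supp_map ((AddMonoidHom.mulLeft (of K G (b x : N))).comp
      ((Finsupp.applyAddHom x).comp (foxD K N b))) _ ?_ y hy
    intro g hg c
    show of K G (b x : N) * foxD K N b (single g c) x ∈ _
    rw [foxD_single, Finsupp.smul_apply, mul_smul_comm]
    refine smul_mem_Supp c (Supp_mono ?_ (foxG_supp N b _ g rfl x).2)
    have hgl : len N b g ≤ l := by
      rcases hg with h | h
      · omega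
      · exact hA g h
    rintro h (h1 | ⟨rfl, h1⟩)
    · left; omega
    · rcases hg with h2 | h2
      · exact Or.inl h2
      · exact Or.inr (Finset.mem_filter.2 ⟨h2, h1⟩)

lemma inter_step (l c : ℕ)
    (ih : ∀ A : Finset G, A.card ≤ c → (∀ h ∈ A, len N b h ≤ l) → ∀ y : MonoidAlgebra K G,
      (∀ m, y ∈ filt K N m) → y ∈ Supp K (fun h => len N b h < l ∨ h ∈ A) → y = 0) :
    ∀ A : Finset G, A.card ≤ c + 1 → (∀ h ∈ A, len N b h ≤ l) → ∀ y : MonoidAlgebra K G,
      (∀ m, y ∈ filt K N m) → y ∈ Supp K (fun h => len N b h < l ∨ h ∈ A) → y = 0 := by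
  classical
  intro A hA hAl y hJ hy
  have hD : foxD K N b y = 0 := by
    ext x : 1
    obtain ⟨h1, h2⟩ := foxD_supp N b l A hAl x y hy
    set A1 := A.filter (fun h => len N b ((b x : N) * h) < len N b h) with hA1
    set A2 := A.filter (fun h => len N b (((b x)⁻¹ : N) * h) < len N b h) with hA2
    have hdisj : Disjoint A1 A2 := by
      rw [Finset.disjoint_left]
      intro h ha1 ha2
      exact len_not_both_shorter N b x h
        ⟨(Finset.mem_filter.1 ha1).2, (Finset.mem_filter.1 ha2).2⟩
    have hcard : A1.card + A2.card ≤ A.card := by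
      rw [← Finset.card_union_of_disjoint hdisj]
      exact Finset.card_le_card
        (Finset.union_subset (Finset.filter_subset _ _) (Finset.filter_subset _ _))
    have hJD : ∀ m, foxD K N b y x ∈ filt K N m := fun m => foxD_mem N b (hJ (m + 1)) x
    by_cases hc1 : A1.card ≤ c
    · exact ih A1 hc1 (fun h hh => hAl h (Finset.mem_of_mem_filter h hh)) _ hJD h1
    · have hc2 : A2.card ≤ c := by omega
      have h0 := ih A2 hc2 (fun h hh => hAl h (Finset.mem_of_mem_filter h hh)) _
        (fun m => filt_mul_left N m _ _ (hJD m)) h2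
      have h3 : of K G (((b x)⁻¹ : N) : G) * (of K G (b x : N) * foxD K N b y x)
          = foxD K N b y x := by
        rw [← mul_assoc, ← map_mul, ← Subgroup.coe_mul, inv_mul_cancel, Subgroup.coe_one, map_one,
          one_mul]
      rw [← h3, h0, mul_zero]
      rfl
  rw [← foxEval_foxD N b (hJ 1), hD, map_zero]

theorem inter_aux (l : ℕ) : ∀ (c : ℕ) (A : Finset G), A.card ≤ c → (∀ h ∈ A, len N b h ≤ l) →
    ∀ y : MonoidAlgebra K G, (∀ m, y ∈ filt K N m) →
      y ∈ Supp K (fun h => len N b h < l ∨ h ∈ A) → y = 0 := by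
  induction l with
  | zero =>
    intro c
    induction c with
    | zero =>
      intro A hA _ y _ hy
      have hA0 : A = ∅ := Finset.card_eq_zero.1 (Nat.le_zero.1 hA)
      subst hA0
      ext g
      by_contra h
      rcases hy g h with h1 | h1
      · omega
      · simp at h1
    | succ c ihc => exact inter_step N b 0 c ihc
  | succ l ih =>
    intro c
    induction c with
    | zero =>
      intro A hA _ y hJ hy
      have hA0 : A = ∅ := Finset.card_eq_zero.1 (Nat.le_zero.1 hA)
      subst hA0
      refine ih _ y.coeff.support le_rfl ?_ y hJ ?_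
      · intro h hh
        rcases hy h (Finsupp.mem_support_iff.1 hh) with h1 | h1
        · omega
        · simp at h1
      · intro h hh
        exact Or.inr (Finsupp.mem_support_iff.2 hh)
    | succ c ihc => exact inter_step N b (l + 1) c ihc

include b in
/-- The powers of the kernel of `K[G] → K[G/N]` intersect in zero when `N` is free. -/
theorem iInf_filt_free (y : MonoidAlgebra K G) (hy : ∀ m, y ∈ filt K N m) : y = 0 := by
  classical
  refine inter_aux N b (y.coeff.support.sup (len N b) + 1) 0 ∅ le_rfl (by simp) y hy ?_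
  intro h hh
  left
  exact Nat.lt_succ_of_le (Finset.le_sup (f := len N b) (Finsupp.mem_support_iff.2 hh))

end Vale.Agent.Lib.P201
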